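import Vale.Agent.P181.S6.Spec
import Vale.Agent.P181.H59.SpecG
import Vale.Agent.P181.T4.Typ

/-!
# P181, S6: the statements with multiplicities
-/

set_option autoImplicit false

namespace Vale.Agent.P181.S6

open Finset Vale.Agent.P181 Vale.Agent.P181.H280 Vale.Agent.P181.H463 Vale.Agent.P181.H59

/-- **[S6-MATG]** the orbit inequality for `b` letters of degree `k` and `n` rows. -/
def MatG : Prop :=
  ∀ (n k b R N : ℕ) (len : Fin N → ℕ) (lam η : Fin n → ℕ), 0 < b → Design b R N len →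
    (∀ c, R ≤ len c ∧ len c ≤ n) → Antitone η →
    (∀ i : Fin n, (univ.filter fun c => (i : ℕ) < len c).card + η i = lam i) →
    ∑ i, lam i = k * b →
    gt n b η ≤ ((∑ i, η i) + b - 1).choose (b - 1) * (b.factorial * plethMult b k n lam)

/-- **The theorem S6.** -/
def Main6 : Prop :=
  ∀ ε δ : ℝ, 0 < ε → 0 < δ → ∀ᶠ a : ℕ in Filter.atTop, ∀ b : ℕ, (1 + δ) * a ≤ b →
    ∀ lam : Fin a → ℕ, Antitone lam → ∑ i, lam i = a * b →
    (∀ i, (lam i : ℝ) ≤ a * (b : ℝ) ^ (1 - ε)) →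
    plethMult a b a lam ≤ plethMult b a a lam

/-- **[S6-NUM]** choice of the marker columns and the numbers. -/
def Num6 : Prop := DesAll → MatStmt → Main6

/-- **(LB9)** the general lower bound: `b` letters of degree `k`, at most `n ≤ a` rows, and
`(b / l) (log a) ^ C` columns of length at least `l` for some `l ≥ a ^ ε`. -/
def LB9 : Prop :=
  ∀ ε δ : ℝ, 0 < ε → 0 < δ → ∃ C : ℕ, ∀ᶠ a : ℕ in Filter.atTop, ∀ (k b n l : ℕ)
    (lam : Fin n → ℕ), n ≤ a → (1 + δ) * a ≤ b → b ≤ a ^ 2 → k ≤ a → Antitone lam →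
    ∑ i, lam i = k * b → (a : ℝ) ^ ε ≤ l → l ≤ n →
    (b : ℝ) * Real.log a ^ C ≤ l * T4.ex lam (l - 1) →
    (gt n a lam : ℝ) * Real.exp (2 * b) ≤ plethMult b k n lam

/-- **[S6-LB]** -/
def LbStmt : Prop := DesAll → MatG → LB9

end Vale.Agent.P181.S6
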