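import Vale.Agent.P181.H59.Spec

/-!
# P181, S6: star systems for short marker columns (combinatorial specification)

Stars with pairwise different sizes on the letters `Fin b`, for columns of length
`b ^ ε ≤ m ≤ C √b`; certification columns with small degrees.
-/

set_option autoImplicit false

namespace Vale.Agent.P181.S6

open Finset Vale.Agent.P181.H59

/-- `R` stars on the letters `Fin b`, of pairwise different sizes in `[h, 1.1 h]`, two of them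
meet in at most `h / 10` letters, every letter is in at most `j` stars, the stars separate the
letters. -/
structure Mid (b h j R : ℕ) where
  st : Fin R → Finset (Fin b)
  size_inj : ∀ i i', (st i).card = (st i').card → i = i'
  size_ge : ∀ i, h ≤ (st i).card
  size_le : ∀ i, 10 * (st i).card ≤ 11 * h
  inter : ∀ i i', i ≠ i' → 10 * (st i ∩ st i').card ≤ h
  deg : ∀ p, (univ.filter fun i => p ∈ st i).card ≤ j
  sep : ∀ p q, (∀ i, p ∈ st i ↔ q ∈ st i) → p = q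

/-- **[S6-STR]** such systems exist. -/
def StrStmt : Prop :=
  ∀ b h j g : ℕ, 2 ≤ j → 6 ≤ g → 2 * h ≤ 2 ^ (g * (j - 1)) → 64 * 2 ^ (g * (j - 1)) ≤ b →
    4 * 2 ^ g * h ≤ b → 64 * h ≤ b → 100 * j * b ≤ h ^ 2 →
    ∃ R : ℕ, 0 < R ∧ R * h ≤ j * (b + 1) ∧ Nonempty (Mid b h j R)

/-- the certification columns: exact sizes, distinct representatives, small degrees, and every
set `T` which contains no star (and at most half of every star smaller than `T`) is missed by one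
of the columns. -/
def Cert {b h j R N : ℕ} (S : Mid b h j R) (len : Fin N → ℕ) (P : ℕ)
    (A : Fin N → Finset (Fin b)) : Prop :=
  (∀ c, (A c).card = len c) ∧ (∀ c, HasSDR S.st (A c)) ∧ (∀ p, dgr A p ≤ P) ∧
    ∀ T : Finset (Fin b), 10 * T.card ≤ 11 * h → (∀ i, ¬ S.st i ⊆ T) →
      (∀ i, (S.st i).card < T.card → 2 * (S.st i ∩ T).card ≤ h) → ∃ c, Disjoint (A c) T

/-- **[S6-PICK]** many systems of distinct representatives avoid `T`. -/
def PickStmt : Prop :=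
  ∀ (b h j R D : ℕ) (S : Mid b h j R) (T : Finset (Fin b)), 0 < R → 1 ≤ j → 1 ≤ D →
    10 * T.card ≤ 11 * h → 100 * j ≤ h → 100 * j ^ 2 * b ≤ h ^ 2 →
    (∀ i, D ≤ (S.st i \ T).card) →
    Real.exp (-(20 * (j : ℝ))) * ((D : ℝ) / h) * ∏ i, ((S.st i).card : ℝ) ≤
      ((univ.filter fun φ : Fin R → Fin b =>
        Function.Injective φ ∧ ∀ i, φ i ∈ S.st i \ T).card : ℝ)

/-- **[S6-GEN]** independent samples: all targets are missed and all degrees are small. -/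
def GenStmt : Prop :=
  ∀ (N b P : ℕ) (Ω : Fin N → Type) [∀ c, Fintype (Ω c)] [∀ c, Nonempty (Ω c)]
    (A : ∀ c, Ω c → Finset (Fin b)) (𝒯 : Finset (Finset (Fin b))) (x : Finset (Fin b) → ℝ)
    (q : ℝ), 0 ≤ q →
    (∀ c, ∀ T ∈ 𝒯, x T * Fintype.card (Ω c) ≤
      ((univ.filter fun ω : Ω c => Disjoint (A c ω) T).card : ℝ)) →
    (∀ c p, ((univ.filter fun ω : Ω c => p ∈ A c ω).card : ℝ) ≤ q * Fintype.card (Ω c)) →
    (∑ T ∈ 𝒯, Real.exp (-(N * x T))) + b * (3 * N * q / (P + 1)) ^ (P + 1) < 1 →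
    ∃ ω : ∀ c, Ω c, (∀ T ∈ 𝒯, ∃ c, Disjoint (A c (ω c)) T) ∧
      ∀ p, (univ.filter fun c => p ∈ A c (ω c)).card ≤ P

/-- **[S6-HIT]** certification columns exist. -/
def HitStmt : Prop :=
  ∀ j K : ℕ, 1 ≤ j → ∃ C : ℕ, 1 ≤ C ∧ ∀ (b h R N P : ℕ) (S : Mid b h j R), 0 < R →
    R * h ≤ j * (b + 1) → C ≤ h → 100 * j ^ 2 * b ≤ h ^ 2 → 64 * h ≤ b →
    (C : ℝ) * h * Real.log (b + 1) ≤ N → C * N ≤ P * h →
    ∀ len : Fin N → ℕ, (∀ c, R ≤ len c ∧ 4 * len c ≤ b ∧ len c * h ≤ K * b) →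
    ∃ A : Fin N → Finset (Fin b), Cert S len P A

/-- **[S6-RIG]** rigidity: go through the stars by increasing size. -/
def RigStmt : Prop :=
  ∀ (b h j R N P : ℕ) (S : Mid b h j R) (len : Fin N → ℕ) (A : Fin N → Finset (Fin b)),
    Cert S len P A → ∀ ρ : Equiv.Perm (Fin b), ρ ≠ 1 →
    ∃ c i, Disjoint ((A c).image ρ) (S.st i)

/-- **[S6-DES]** the design for columns of length `b ^ ε ≤ m ≤ C₀ √b`. -/
def DesMid : Prop :=
  ∀ (ε : ℝ) (C₀ : ℕ), 0 < ε → ∃ C b0 : ℕ, ∀ b m N : ℕ, b0 ≤ b → (b : ℝ) ^ ε ≤ m →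
    m ^ 2 ≤ C₀ * b → (C : ℝ) * (b / m) * Real.log b ≤ N →
    ∀ len : Fin N → ℕ, (∀ c, m ≤ len c ∧ len c ≤ 2 * m) →
    ∃ R : ℕ, R ≤ m ∧ Design b R N len

/-- certification columns for the star systems of S5, with small degrees. -/
def CertD {b g n N : ℕ} (S : Sys b g n) (len : Fin N → ℕ) (P : ℕ)
    (A : Fin N → Finset (Fin b)) : Prop :=
  (∀ c, (A c).card = len c) ∧ (∀ c, HasSDR S.st (A c)) ∧ (∀ p, dgr A p ≤ P) ∧
    ∀ T : Finset (Fin b), T.card ≤ 2 ^ g + 2 → (∀ i, ¬ S.st i ⊆ T) → ∃ c, Disjoint (A c) T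

/-- **[S6-HIT5]** the certification columns of S5 with small degrees: a letter is in a sample
with probability at most `4 / 2 ^ g + (k + 1) / n`. -/
def Hit5Stmt : Prop :=
  ∀ (b g n k N P : ℕ) (θ : ℝ) (S : Sys b g n), 6 ≤ g → 2 ^ g + 2 < n → k + (2 ^ g + 2) ≤ n →
    n + n ≤ b → 0 < θ → θ ≤ (1 - (k : ℝ) / ((n : ℝ) - (2 ^ g + 2))) ^ (2 ^ g + 2) →
    100 * g * 2 ^ g * Real.log (b + 1) ≤ N * (θ * Real.exp (-25)) →
    9 * N * (4 / 2 ^ g + ((k : ℝ) + 2) / n) + 2 * Real.log (b + 1) ≤ P →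
    ∀ len : Fin N → ℕ, (∀ c, n + n ≤ len c ∧ len c ≤ k * 2 ^ g) →
    ∃ A : Fin N → Finset (Fin b), CertD S len P A

/-- **[S6-BIG]** the design for columns of length `C √b ≤ m` with few columns. -/
def DesBig : Prop :=
  ∀ δ : ℝ, 0 < δ → ∃ C b0 : ℕ, ∀ b a m N : ℕ, b0 ≤ b → (1 + δ) * a ≤ b → C * b ≤ m ^ 2 →
    m ≤ a → ((b : ℝ) / m) * Real.log b ^ C ≤ N →
    ∀ len : Fin N → ℕ, (∀ c, m ≤ len c ∧ len c ≤ 2 * m ∧ len c ≤ a) →
    ∃ R : ℕ, R ≤ m ∧ Design b R N len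

/-- **The design for all lengths `b ^ ε ≤ m`.** -/
def DesAll : Prop :=
  ∀ ε δ : ℝ, 0 < ε → 0 < δ → ∃ C b0 : ℕ, ∀ b a m N : ℕ, b0 ≤ b → (1 + δ) * a ≤ b →
    (b : ℝ) ^ ε ≤ m → m ≤ a → ((b : ℝ) / m) * Real.log b ^ C ≤ N →
    ∀ len : Fin N → ℕ, (∀ c, m ≤ len c ∧ len c ≤ 2 * m ∧ len c ≤ a) →
    ∃ R : ℕ, R ≤ m ∧ Design b R N len

theorem desAll (h1 : DesMid) (h2 : DesBig) : DesAll := by
  intro ε δ hε hδ
  obtain ⟨C2, b2, H2⟩ := h2 δ hδ
  obtain ⟨C1, b1, H1⟩ := h1 ε C2 hε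
  obtain ⟨b3, hb3⟩ := Filter.eventually_atTop.1
    ((Filter.Tendsto.comp Real.tendsto_log_atTop tendsto_natCast_atTop_atTop).eventually_ge_atTop
      (max (C1 : ℝ) 1))
  refine ⟨max C2 2, max (max b1 b2) b3, fun b a m N hb hab hm hma hN len hlen => ?_⟩
  have hlog := hb3 b (le_trans (le_max_right _ _) hb)
  simp only [Function.comp] at hlog
  have hl1 : 1 ≤ Real.log b := le_trans (le_max_right _ _) hlog
  have hlC : (C1 : ℝ) ≤ Real.log b := le_trans (le_max_left _ _) hlog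
  have hbm : 0 ≤ (b : ℝ) / m := by positivity
  by_cases hc : C2 * b ≤ m ^ 2
  · refine H2 b a m N (by omega) hab hc hma (le_trans ?_ hN) len hlen
    exact mul_le_mul_of_nonneg_left (pow_le_pow_right₀ hl1 (le_max_left _ _)) hbm
  · refine H1 b m N (by omega) hm (by omega) (le_trans ?_ hN) len
      (fun c => ⟨(hlen c).1, (hlen c).2.1⟩)
    have h2' : Real.log b ^ 2 ≤ Real.log b ^ (max C2 2) :=
      pow_le_pow_right₀ hl1 (le_max_right _ _)
    calc (C1 : ℝ) * (b / m) * Real.log b = (b / m) * (C1 * Real.log b) := by ring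
      _ ≤ (b / m) * (Real.log b ^ 2) := by
          apply mul_le_mul_of_nonneg_left _ hbm
          rw [sq]
          exact mul_le_mul_of_nonneg_right hlC (by linarith)
      _ ≤ _ := mul_le_mul_of_nonneg_left h2' hbm

end Vale.Agent.P181.S6
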